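import Vale.Agent.P132.Basic

/-!
# P096 (strong Kadison - Kastler): interface definitions

None of these definitions appears in the final statement. See `notes/P096F.md`.
-/

namespace Vale.Agent.P096

open Vale.Agent.P104 Vale.Agent.P132 Filter Topology
open scoped InnerProductSpace

universe u

section Basic

variable {H : Type*} [NormedAddCommGroup H] [InnerProductSpace ℂ H] [CompleteSpace H]

/-- Near inclusion. -/
def NI (M N : VonNeumannAlgebra H) (δ : ℝ) : Prop := ∀ x ∈ M, ∃ y ∈ N, ‖x - y‖ ≤ δ * ‖x‖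

/-- The algebras are close and their commutants are close. -/
structure Cl (M N : VonNeumannAlgebra H) (δ : ℝ) : Prop where
  mn : NI M N δ
  nm : NI N M δ
  mn' : NI M.commutant N.commutant δ
  nm' : NI N.commutant M.commutant δ

/-- A linear map of `M` into `N` which is close to the inclusion. -/
def Lift (M N : VonNeumannAlgebra H) (ε : ℝ) : Prop :=
  ∃ Φ : Op H →ₗ[ℂ] Op H, ∀ x ∈ M, Φ x ∈ N ∧ ‖Φ x - x‖ ≤ ε * ‖x‖

/-- A refining sequence of finite partitions of unity `d k` in `M ∩ N`, paired by the vector `ξ` with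
partitions `d' k` in the commutants, which is maximal abelian in the `L²` sense. -/
structure MS (M N : VonNeumannAlgebra H) (ξ : H) where
  n : ℕ → ℕ
  d : (k : ℕ) → Fin (n k) → Op H
  d' : (k : ℕ) → Fin (n k) → Op H
  proj : ∀ k a, IsStarProjection (d k a)
  proj' : ∀ k a, IsStarProjection (d' k a)
  dM : ∀ k a, d k a ∈ M
  dN : ∀ k a, d k a ∈ N
  dM' : ∀ k a, d' k a ∈ M.commutant
  dN' : ∀ k a, d' k a ∈ N.commutant
  orth : ∀ k a b, a ≠ b → d k a * d k b = 0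
  orth' : ∀ k a b, a ≠ b → d' k a * d' k b = 0
  sum : ∀ k, ∑ a, d k a = 1
  sum' : ∀ k, ∑ a, d' k a = 1
  ref : ∀ k l, k ≤ l → ∀ b, ∃ a, d k a * d l b = d l b ∧ d' k a * d' l b = d' l b
  vec : ∀ k a, d k a ξ = d' k a ξ
  ms : ∀ (η : H) (ε : ℝ), 0 < ε → ∀ᶠ k in atTop, ∃ c : Fin (n k) → ℂ,
    ∑ a, ‖d k a (d' k a η) - c a • d k a ξ‖ ^ 2 ≤ ε

/-- The two elements `a ∈ Q`, `a' ∈ Q'` agree on the vector. -/
structure Gr (Q : VonNeumannAlgebra H) (Ω : H) (a a' : Op H) : Prop where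
  mem : a ∈ Q
  mem' : a' ∈ Q.commutant
  eq : a Ω = a' Ω

end Basic

/-- The strong Kadison - Kastler property in terms of near inclusions. -/
def KKStmt : Prop :=
  ∀ ε : ℝ, 0 < ε → ∃ δ : ℝ, 0 < δ ∧ ∀ (H : Type u) [NormedAddCommGroup H] [InnerProductSpace ℂ H]
    [CompleteSpace H] (M N : VonNeumannAlgebra H), NI M N δ → NI N M δ →
      ∃ v ∈ unitary (Op H), ‖v - 1‖ ≤ ε ∧ ∀ x, x ∈ M ↔ v * x * star v ∈ N

/-- Linear lifting. -/
def LLStmt : Prop :=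
  ∀ ε : ℝ, 0 < ε → ∃ δ : ℝ, 0 < δ ∧ ∀ (H : Type u) [NormedAddCommGroup H] [InnerProductSpace ℂ H]
    [CompleteSpace H] (M N : VonNeumannAlgebra H), NI M N δ → NI N M δ → Lift M N ε

/-- Linear lifting in the presence of a common maximal abelian system. -/
def LWStmt : Prop :=
  ∀ ε : ℝ, 0 < ε → ∃ δ : ℝ, 0 < δ ∧ ∀ (H : Type u) [NormedAddCommGroup H] [InnerProductSpace ℂ H]
    [CompleteSpace H] (M N : VonNeumannAlgebra H) (ξ : H), ‖ξ‖ = 1 → Dense (orb M ξ) →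
      Dense (orb M.commutant ξ) → MS M N ξ → Cl M N δ → Lift M N ε

/-- The finite target theorem. -/
def FTStmt : Prop :=
  ∀ ε : ℝ, 0 < ε → ∃ δ : ℝ, 0 < δ ∧ ∀ (K : Type u) [NormedAddCommGroup K] [InnerProductSpace ℂ K]
    [CompleteSpace K] (P : Type u) [CStarAlgebra P] (Q : VonNeumannAlgebra K) (Ω : K)
    (ρ : P →ₗ[ℂ] Op K) (y y' : unitary P → Op K), ‖Ω‖ = 1 → Dense (orb Q Ω) →
      Dense (orb Q.commutant Ω) → (∀ x, ‖ρ x‖ ≤ ‖x‖) → (∀ v, Gr Q Ω (y v) (y' v)) →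
      (∀ v : unitary P, ‖ρ v - y v‖ ≤ δ) → (∀ v, ‖y' v‖ ≤ 1 + δ) → ‖y 1 - 1‖ ≤ δ → ‖y' 1 - 1‖ ≤ δ →
      (∀ v w, ‖y (v * w) - y v * y w‖ ≤ δ) → (∀ v w, ‖y' (v * w) - y' w * y' v‖ ≤ δ) →
      ∃ Φ : P →ₗ[ℂ] Op K, ∀ x, Φ x ∈ Q ∧ ‖Φ x - ρ x‖ ≤ ε * ‖x‖

/-- Simultaneous approximation of `x ξ` and `x* ξ`. -/
def S0Stmt : Prop :=
  ∀ κ : ℝ, 0 < κ → ∃ δ : ℝ, 0 < δ ∧ ∀ (H : Type u) [NormedAddCommGroup H] [InnerProductSpace ℂ H]
    [CompleteSpace H] (M N : VonNeumannAlgebra H) (ξ : H), ‖ξ‖ = 1 →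
      Dense (orb M.commutant ξ) → MS M N ξ → Cl M N δ → ∀ x ∈ M, ∀ ε : ℝ, 0 < ε → ∃ y ∈ N,
        ‖(x - y) ξ‖ ≤ κ * ‖x ξ‖ + ε ∧ ‖star (x - y) ξ‖ ≤ κ * ‖star x ξ‖ + ε

/-- The intertwining pair: `S_N A ⊇ B S_M`, commuting with the abelian system. -/
def ABStmt : Prop :=
  ∀ κ : ℝ, 0 < κ → ∃ δ : ℝ, 0 < δ ∧ ∀ (H : Type u) [NormedAddCommGroup H] [InnerProductSpace ℂ H]
    [CompleteSpace H] (M N : VonNeumannAlgebra H) (ξ : H) (D : MS M N ξ), ‖ξ‖ = 1 →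
      Dense (orb M ξ) → Dense (orb M.commutant ξ) → Cl M N δ →
      Dense (orb N ξ) ∧ Dense (orb N.commutant ξ) ∧ ∃ A B : Op H, ‖A - 1‖ ≤ κ ∧ ‖B - 1‖ ≤ κ ∧
        (∀ k a, A * D.d k a = D.d k a * A ∧ A * D.d' k a = D.d' k a * A) ∧
        ∀ x ∈ M, ∀ s ∈ N.commutant, ⟪star s ξ, A (x ξ)⟫_ℂ = ⟪B (star x ξ), s ξ⟫_ℂ

/-- The conjugation maps the commutant into the algebra. -/
def Std {H : Type u} [NormedAddCommGroup H] [InnerProductSpace ℂ H] [CompleteSpace H]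
    (S : SF H) : Prop := ∀ x ∈ S.M.commutant, jconj S.J x ∈ S.M

/-- A strongly continuous one parameter unitary group which normalizes `M`. -/
structure Flow {H : Type u} [NormedAddCommGroup H] [InnerProductSpace ℂ H] [CompleteSpace H]
    (M : VonNeumannAlgebra H) (V : ℝ → Op H) : Prop where
  zero : V 0 = 1
  add : ∀ s t, V (s + t) = V s * V t
  star : ∀ t, star (V t) = V (-t)
  cont : ∀ η, Continuous fun t => V t η
  mem : ∀ t, ∀ x ∈ M, V t * x * V (-t) ∈ M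

/-- A common maximal abelian system gives a flow on `M` uniformly close to the modular flow of `N`. -/
def MCStmt : Prop :=
  ∀ ε : ℝ, 0 < ε → ∃ δ : ℝ, 0 < δ ∧ ∀ (H : Type u) [NormedAddCommGroup H] [InnerProductSpace ℂ H]
    [CompleteSpace H] (S T : SF H), Std S → Std T → S.ξ = T.ξ → MS S.M T.M S.ξ → Cl S.M T.M δ →
      ∃ V, Flow S.M V ∧ ∀ t, ‖V t - T.Δ t‖ ≤ ε

/-- Close flows give a linear lifting. -/
def MLStmt : Prop :=
  ∀ ε : ℝ, 0 < ε → ∃ δ : ℝ, 0 < δ ∧ ∀ (H : Type u) [NormedAddCommGroup H] [InnerProductSpace ℂ H]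
    [CompleteSpace H] (M : VonNeumannAlgebra H) (T : SF H) (V : ℝ → Op H), Flow M V →
      (∀ t, ‖V t - T.Δ t‖ ≤ δ) → Cl M T.M δ → Lift M T.M ε

/-- Linear liftings at all matrix levels give a unitary. -/
def AStmt : Prop :=
  ∀ ε : ℝ, 0 < ε → ∃ δ : ℝ, 0 < δ ∧ ∀ (H : Type u) [NormedAddCommGroup H] [InnerProductSpace ℂ H]
    [CompleteSpace H] (M N : VonNeumannAlgebra H), NI N M δ →
      (∀ (k : ℕ) (A : Amp H (PiLp 2 fun _ : Fin (k + 1) => H) (Fin (k + 1))),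
        Lift (A.alg M) (A.alg N) δ) →
      ∃ v ∈ unitary (Op H), ‖v - 1‖ ≤ ε ∧ ∀ x, x ∈ M ↔ v * x * star v ∈ N

end Vale.Agent.P096
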